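import Mathlib

/-! P101: one-sided approximate intertwining. Stages `B k` with isometric connecting maps and
constants from `A`; if unitaries almost commuting with the constants conjugate every finite set
into a small neighbourhood of the constants, then `A` is the inductive limit of the stages. -/

open Filter Topology

namespace Vale.Agent.P101.Lit

namespace Intertwine

variable {A : Type*} [CStarAlgebra A] {B : ℕ → Type*} [∀ k, CStarAlgebra (B k)]

lemma norm_conj {D : Type*} [CStarAlgebra D] {w : D} (hw : w ∈ unitary D) (x : D) :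
    ‖star w * x * w‖ = ‖x‖ := by
  rw [CStarRing.norm_mul_mem_unitary _ hw, CStarRing.norm_mem_unitary_mul _ (Unitary.star_mem hw)]

lemma conj_conj {D : Type*} [CStarAlgebra D] {w : D} (hw : w ∈ unitary D) (x : D) :
    w * (star w * x * w) * star w = x := by
  simp only [mul_assoc, Unitary.mul_star_self_of_mem hw, mul_one]
  rw [← mul_assoc, Unitary.mul_star_self_of_mem hw, one_mul]

lemma conj_conj' {D : Type*} [CStarAlgebra D] {w : D} (hw : w ∈ unitary D) (x : D) :
    star w * (w * x * star w) * w = x := by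
  simpa using conj_conj (Unitary.star_mem hw) x

end Intertwine

open Intertwine in
/-- One-sided approximate intertwining (Rørdam 7.2.1). -/
theorem exists_limit_maps {A : Type*} [CStarAlgebra A] [TopologicalSpace.SeparableSpace A]
    {B : ℕ → Type*} [∀ k, CStarAlgebra (B k)] [∀ k, TopologicalSpace.SeparableSpace (B k)]
    (T : ∀ {k l : ℕ}, k ≤ l → (B k →⋆ₐ[ℂ] B l))
    (hTT : ∀ {k l m : ℕ} (h : k ≤ l) (h' : l ≤ m) (b : B k), T h' (T h b) = T (h.trans h') b)
    (hT : ∀ {k l : ℕ} (h : k ≤ l) (b : B k), ‖T h b‖ = ‖b‖)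
    (ι : ∀ k, A →⋆ₐ[ℂ] B k)
    (hι : ∀ {k l : ℕ} (h : k ≤ l) (a : A), T h (ι k a) = ι l a)
    (hιn : ∀ k (a : A), ‖ι k a‖ = ‖a‖)
    (hflip : ∀ k, ∀ (F : Finset A) (G : Finset (B k)) (ε : ℝ), 0 < ε →
      ∃ m, ∃ h : k ≤ m, ∃ v ∈ unitary (B m), (∀ a ∈ F, ‖v * ι m a - ι m a * v‖ ≤ ε) ∧
        ∀ b ∈ G, ∃ a : A, ‖star v * T h b * v - ι m a‖ ≤ ε) :
    ∃ j : ∀ k, B k →⋆ₐ[ℂ] A, (∀ k b, ‖j k b‖ = ‖b‖) ∧
      (∀ (k l : ℕ) (h : k ≤ l) (b : B k), j l (T h b) = j k b) ∧
      Dense (⋃ k, Set.range (j k)) := by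
  classical
  let d : ∀ k, ℕ → B k := fun k => TopologicalSpace.denseSeq (B k)
  let α : ℕ → A := TopologicalSpace.denseSeq A
  let ε : ℕ → ℝ := fun n => (1 / 2 : ℝ) ^ n
  have hε : ∀ n, 0 < ε n := fun n => by positivity
  -- one step
  let S := Σ' m : ℕ, {w : B m // w ∈ unitary (B m)} × Finset A
  have step : ∀ (n : ℕ) (s : S), ∃ s' : S, n + 1 ≤ s'.1 ∧ ∃ h : s.1 ≤ s'.1,
      (∀ a ∈ s.2.2 ∪ (Finset.range (n + 1)).image α,
        ‖star s'.2.1.1 * T h (s.2.1.1 * ι s.1 a * star s.2.1.1) * s'.2.1.1 - ι s'.1 a‖ ≤ ε n) ∧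
      ∀ k ≤ n, ∀ i ≤ n, ∀ h' : k ≤ s'.1, ∃ a ∈ s'.2.2,
        ‖star s'.2.1.1 * T h' (d k i) * s'.2.1.1 - ι s'.1 a‖ ≤ ε n := by
    rintro n ⟨m₀, ⟨w₀, hw₀⟩, F₀⟩
    set k₀ := max m₀ (n + 1)
    have hm₀ : m₀ ≤ k₀ := le_max_left _ _
    have hk : ∀ {k}, k ≤ n → k ≤ k₀ := fun h => le_trans (by omega) (le_max_right _ _)
    set w₁ := T hm₀ w₀ with hw₁d
    have hw₁ : w₁ ∈ unitary (B k₀) := Unitary.map_mem (T hm₀) hw₀
    let G : Finset (B k₀) := (Finset.range (n + 1)).biUnion fun k =>
      (Finset.range (n + 1)).image fun i =>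
        if h : k ≤ k₀ then star w₁ * T h (d k i) * w₁ else 0
    obtain ⟨m, hm, v, hv, hvF, hvG⟩ := hflip k₀ (F₀ ∪ (Finset.range (n + 1)).image α) G (ε n) (hε n)
    have hw : T hm w₁ * v ∈ unitary (B m) := mul_mem (Unitary.map_mem (T hm) hw₁) hv
    choose ap hap using fun b : {b // b ∈ G} => hvG b.1 b.2
    refine ⟨⟨m, ⟨_, hw⟩, G.attach.image ap⟩, le_trans (le_max_right _ _) hm, hm₀.trans hm,
      fun a ha => ?_, fun k hkn i hin h' => ?_⟩
    · have e : star (T hm w₁ * v) * T (hm₀.trans hm) (w₀ * ι m₀ a * star w₀) * (T hm w₁ * v)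
          - ι m a = star v * (ι m a * v - v * ι m a) := by
        rw [← hTT hm₀ hm]
        simp only [map_mul, map_star, hι, ← hw₁d]
        rw [star_mul, mul_sub (star v), ← mul_assoc (star v) v, Unitary.star_mul_self_of_mem hv,
          one_mul]
        congr 1
        set u := T hm w₁
        have hu : u ∈ unitary (B m) := Unitary.map_mem (T hm) hw₁
        calc star v * star u * (u * ι m a * star u) * (u * v)
            = star v * (star u * (u * ι m a * star u) * u) * v := by simp only [mul_assoc]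
          _ = star v * (ι m a * v) := by rw [conj_conj' hu, mul_assoc]
      rw [e, CStarRing.norm_mem_unitary_mul _ (Unitary.star_mem hv), norm_sub_rev]
      exact hvF a ha
    · have hg : star w₁ * T (hk hkn) (d k i) * w₁ ∈ G :=
        Finset.mem_biUnion.2 ⟨k, Finset.mem_range.2 (by omega),
          Finset.mem_image.2 ⟨i, Finset.mem_range.2 (by omega), dif_pos (hk hkn)⟩⟩
      refine ⟨ap ⟨_, hg⟩, Finset.mem_image_of_mem _ (Finset.mem_attach _ _), le_of_eq_of_le ?_ (hap ⟨_, hg⟩)⟩
      simp only [map_mul, map_star, hTT, star_mul, mul_assoc]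
  choose nxt hnm hle hprot happ using step
  let s : ℕ → S := Nat.rec ⟨0, ⟨1, one_mem _⟩, ∅⟩ fun n s => nxt n s
  let m : ℕ → ℕ := fun n => (s n).1
  let w : ∀ n, B (m n) := fun n => (s n).2.1.1
  have hw : ∀ n, w n ∈ unitary (B (m n)) := fun n => (s n).2.1.2
  have hm : ∀ n, n ≤ m n := by
    rintro (_ | n)
    · exact Nat.zero_le _
    · exact hnm n (s n)
  have hmm : ∀ n, m n ≤ m (n + 1) := fun n => hle n (s n)
  -- pulling an element back to stage `m n`
  let X : ∀ {k} (n : ℕ), k ≤ m n → B k → B (m n) := fun {k} n h b => star (w n) * T h b * w n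
  have hXsub : ∀ {k n} (h : k ≤ m n) (b b' : B k), X n h (b - b') = X n h b - X n h b' := fun h b b' => by
    simp only [X, map_sub, mul_sub, sub_mul]
  have hXn : ∀ {k n} (h : k ≤ m n) (b : B k), ‖X n h b‖ = ‖b‖ := fun {k n} h b => by
    simp only [X, norm_conj (hw n), hT]
  -- one step moves protected constants by at most `ε n`
  have move : ∀ {k n} (h : k ≤ m n) (b : B k) (a : A),
      a ∈ (s n).2.2 ∪ (Finset.range (n + 1)).image α →
      ‖X (n + 1) (h.trans (hmm n)) b - ι _ a‖ ≤ ‖X n h b - ι _ a‖ + ε n := by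
    intro k n h b a ha
    set y := w n * ι (m n) a * star (w n)
    have h1 : ‖X (n + 1) (hmm n) y - ι _ a‖ ≤ ε n := hprot n (s n) a ha
    have h2 : ‖X (n + 1) (h.trans (hmm n)) b - X (n + 1) (hmm n) y‖ = ‖X n h b - ι _ a‖ := by
      have e : X n h b - ι _ a = star (w n) * (T h b - y) * w n := by
        simp only [X, mul_sub, sub_mul, y, conj_conj' (hw n)]
      have e' : X (n + 1) (h.trans (hmm n)) b = X (n + 1) (hmm n) (T h b) := by simp only [X, hTT]
      rw [e', ← hXsub (n := n + 1) (hmm n) (T h b) y]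
      exact (hXn (n := n + 1) (hmm n) _).trans (by rw [e, norm_conj (hw n)])
    linarith [norm_sub_le_norm_sub_add_norm_sub (X (n + 1) (h.trans (hmm n)) b) (X (n + 1) (hmm n) y) (ι _ a)]
  -- limits
  let Lim : ∀ k, B k → A → Prop := fun k b a => ∀ δ > 0, ∀ᶠ n in atTop, ∀ h : k ≤ m n,
    ‖X n h b - ι _ a‖ < δ
  have ev : ∀ k, ∀ᶠ n in atTop, k ≤ m n := fun k =>
    (eventually_ge_atTop k).mono fun n hn => hn.trans (hm n)
  have Lim_norm : ∀ {k} {b : B k} {a : A}, Lim k b a → ‖a‖ = ‖b‖ := by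
    intro k b a hL
    refine eq_of_forall_dist_le fun δ hδ => ?_
    obtain ⟨n, hn, h⟩ := ((hL δ hδ).and (ev k)).exists
    rw [Real.dist_eq, ← hιn (m n), ← hXn h b]
    exact (abs_norm_sub_norm_le _ _).trans (by rw [norm_sub_rev]; exact (hn h).le)
  have Lim_add : ∀ {k} {b b' : B k} {a a' : A}, Lim k b a → Lim k b' a' → Lim k (b + b') (a + a') := by
    intro k b b' a a' hL hL' δ hδ
    filter_upwards [hL _ (half_pos hδ), hL' _ (half_pos hδ)] with n hn hn' h
    have e : X n h (b + b') - ι _ (a + a') = (X n h b - ι _ a) + (X n h b' - ι _ a') := by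
      simp only [X, map_add, mul_add, add_mul]; abel
    rw [e]; linarith [norm_add_le (X n h b - ι _ a) (X n h b' - ι _ a'), hn h, hn' h]
  have Lim_const : ∀ {k} (r : ℂ), Lim k (algebraMap ℂ _ r) (algebraMap ℂ _ r) := by
    intro k r δ hδ
    refine Eventually.of_forall fun n h => ?_
    have e : X n h (algebraMap ℂ (B k) r) = ι _ (algebraMap ℂ A r) := by
      simp [X, Algebra.algebraMap_eq_smul_one, Unitary.star_mul_self_of_mem (hw n)]
    simpa [e] using hδ
  have Lim_star : ∀ {k} {b : B k} {a : A}, Lim k b a → Lim k (star b) (star a) := by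
    intro k b a hL δ hδ
    filter_upwards [hL δ hδ] with n hn h
    have e : X n h (star b) - ι _ (star a) = star (X n h b - ι _ a) := by
      simp only [X, map_star, star_sub, star_mul, star_star, mul_assoc]
    rw [e, norm_star]; exact hn h
  have Lim_mul : ∀ {k} {b b' : B k} {a a' : A}, Lim k b a → Lim k b' a' → Lim k (b * b') (a * a') := by
    intro k b b' a a' hL hL' δ hδ
    have hb : 0 < ‖b‖ + ‖a'‖ + 1 := by positivity
    filter_upwards [hL _ (div_pos hδ hb), hL' _ (div_pos hδ hb)] with n hn hn' h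
    have e : X n h (b * b') - ι _ (a * a')
        = X n h b * (X n h b' - ι _ a') + (X n h b - ι _ a) * ι _ a' := by
      have e0 : X n h (b * b') = X n h b * X n h b' := by
        simp only [X, map_mul]
        conv_rhs => rw [mul_assoc, ← mul_assoc (w n), ← mul_assoc (w n),
          Unitary.mul_star_self_of_mem (hw n), one_mul]
        simp only [mul_assoc]
      rw [e0, map_mul]; noncomm_ring
    set η := δ / (‖b‖ + ‖a'‖ + 1) with hη
    have hηδ : η * (‖b‖ + ‖a'‖ + 1) = δ := div_mul_cancel₀ _ hb.ne'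
    have hη0 : 0 < η := div_pos hδ hb
    calc ‖X n h (b * b') - ι _ (a * a')‖ ≤ ‖b‖ * η + η * ‖a'‖ := by
          rw [e]
          refine (norm_add_le _ _).trans (add_le_add ((norm_mul_le _ _).trans ?_)
            ((norm_mul_le _ _).trans ?_))
          · rw [hXn]; exact mul_le_mul_of_nonneg_left (hn' h).le (norm_nonneg _)
          · rw [hιn]; exact mul_le_mul_of_nonneg_right (hn h).le (norm_nonneg _)
      _ < δ := by nlinarith [mul_comm ‖b‖ η]
  have Lim_sub : ∀ {k} {b b' : B k} {a a' : A}, Lim k b a → Lim k b' a' → Lim k (b - b') (a - a') := by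
    intro k b b' a a' hL hL'
    simpa [sub_eq_add_neg] using Lim_add hL (Lim_mul (Lim_const (-1)) hL')
  have Lim_uniq : ∀ {k} {b : B k} {a a' : A}, Lim k b a → Lim k b a' → a = a' := by
    intro k b a a' h h'
    have := Lim_norm (Lim_sub h h')
    rwa [sub_self, norm_zero, norm_eq_zero, sub_eq_zero] at this
  -- dense elements have limits
  have Lim_dense : ∀ k i, ∃ a, Lim k (d k i) a := by
    intro k i
    set N := max k i
    have hh : ∀ n, k ≤ m (N + n + 1) := fun n =>
      le_trans (show k ≤ N + n + 1 from (le_max_left k i).trans (Nat.le_add_right N (n + 1))) (hm _)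
    choose a haF ha using fun n => happ (N + n) (s (N + n)) k
      (le_trans (le_max_left k i) (Nat.le_add_right _ _)) i
      (le_trans (le_max_right k i) (Nat.le_add_right _ _)) (hh n)
    have hdist : ∀ n, dist (a n) (a (n + 1)) ≤ 3 * ε (N + n) := by
      intro n
      have h1 : ‖X (N + n + 1) (hh n) (d k i) - ι _ (a n)‖ ≤ ε (N + n) := ha n
      have h2 : ‖X (N + (n + 1) + 1) (hh (n + 1)) (d k i) - ι _ (a (n + 1))‖ ≤ ε (N + (n + 1)) := ha (n + 1)
      have h3 : ‖X (N + n + 1 + 1) ((hh n).trans (hmm (N + n + 1))) (d k i) - ι _ (a n)‖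
          ≤ ‖X (N + n + 1) (hh n) (d k i) - ι _ (a n)‖ + ε (N + n + 1) :=
        move (hh n) (d k i) (a n) (Finset.mem_union_left _ (haF n))
      have he : ε (N + n + 1) ≤ ε (N + n) :=
        pow_le_pow_of_le_one (by norm_num) (by norm_num) (Nat.le_succ _)
      rw [dist_eq_norm, ← hιn (m (N + (n + 1) + 1)), map_sub]
      have := norm_sub_le_norm_sub_add_norm_sub (ι _ (a n)) (X (N + (n + 1) + 1) (hh (n + 1)) (d k i))
        (ι (m (N + (n + 1) + 1)) (a (n + 1)))
      rw [norm_sub_rev (ι _ (a n)) (X (N + (n + 1) + 1) (hh (n + 1)) (d k i))] at this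
      have e : ε (N + (n + 1)) = ε (N + n + 1) := rfl
      have h3' : ‖X (N + (n + 1) + 1) (hh (n + 1)) (d k i) - ι _ (a n)‖ ≤ ε (N + n) + ε (N + n + 1) :=
        h3.trans (by linarith)
      linarith
    have hsum : Summable fun n => 3 * ε (N + n) := by
      simp only [ε, pow_add]
      exact ((summable_geometric_of_lt_one (by norm_num) (by norm_num)).mul_left _).mul_left _
    obtain ⟨a', ha'⟩ := cauchySeq_tendsto_of_complete (cauchySeq_of_dist_le_of_summable _ hdist hsum)
    refine ⟨a', fun δ hδ => ?_⟩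
    have h4 : Tendsto (fun n => ε (N + n) + ‖a n - a'‖) atTop (𝓝 0) := by
      simpa using ((hsum.tendsto_atTop_zero.const_mul (1 / 3 : ℝ)).congr fun n => by ring).add
        (tendsto_iff_norm_sub_tendsto_zero.1 ha')
    obtain ⟨n₀, hn₀⟩ := eventually_atTop.1 (h4.eventually (gt_mem_nhds hδ))
    refine eventually_atTop.2 ⟨N + n₀ + 1, fun n hn h => ?_⟩
    obtain ⟨r, rfl⟩ : ∃ r, n = N + (n₀ + r) + 1 := ⟨n - (N + n₀ + 1), by omega⟩
    refine lt_of_le_of_lt ?_ (hn₀ (n₀ + r) (Nat.le_add_right _ _))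
    refine (norm_sub_le_norm_sub_add_norm_sub (X (N + (n₀ + r) + 1) h (d k i)) (ι _ (a (n₀ + r))) (ι _ a')).trans
      (add_le_add (ha (n₀ + r)) ?_)
    rw [← map_sub, hιn]
  -- all elements have limits
  have Lim_ex : ∀ k b, ∃ a, Lim k b a := by
    intro k b
    choose f hf using Lim_dense k
    have hden := TopologicalSpace.denseRange_denseSeq (B k)
    obtain ⟨i, hi⟩ : ∃ i : ℕ → ℕ, Tendsto (fun n => d k (i n)) atTop (𝓝 b) := by
      choose i hi using fun n : ℕ => hden.exists_dist_lt b (Nat.one_div_pos_of_nat (α := ℝ) (n := n))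
      refine ⟨i, tendsto_iff_dist_tendsto_zero.2 (squeeze_zero (fun _ => dist_nonneg) (fun n => ?_)
        tendsto_one_div_add_atTop_nhds_zero_nat)⟩
      rw [dist_comm]; exact (hi n).le
    have hC : CauchySeq fun n => f (i n) := by
      refine Metric.cauchySeq_iff.2 fun δ hδ => ?_
      obtain ⟨N, hN⟩ := Metric.cauchySeq_iff.1 hi.cauchySeq δ hδ
      exact ⟨N, fun p hp q hq => by
        rw [dist_eq_norm, Lim_norm (Lim_sub (hf _) (hf _)), ← dist_eq_norm]; exact hN p hp q hq⟩
    obtain ⟨a, ha⟩ := cauchySeq_tendsto_of_complete hC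
    refine ⟨a, fun δ hδ => ?_⟩
    obtain ⟨p, hp1, hp2⟩ := ((hi.eventually (Metric.ball_mem_nhds b (by positivity : 0 < δ / 3))).and
      (ha.eventually (Metric.ball_mem_nhds a (by positivity : 0 < δ / 3)))).exists
    simp only [dist_eq_norm] at hp1 hp2
    filter_upwards [hf (i p) _ (by positivity : 0 < δ / 3)] with n hn h
    have e : X n h b - ι _ a = -X n h (d k (i p) - b) + (X n h (d k (i p)) - ι _ (f (i p)))
        + ι _ (f (i p) - a) := by
      rw [hXsub, map_sub]; abel
    rw [e]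
    refine lt_of_le_of_lt norm_add₃_le ?_
    rw [norm_neg, hXn, hιn]
    linarith [hn h]
  choose j hj using Lim_ex
  let J : ∀ k, B k →⋆ₐ[ℂ] A := fun k =>
    { toFun := j k
      map_one' := Lim_uniq (hj k 1) (by simpa using Lim_const (k := k) 1)
      map_mul' := fun x y => Lim_uniq (hj k _) (Lim_mul (hj k x) (hj k y))
      map_zero' := Lim_uniq (hj k 0) (by simpa using Lim_const (k := k) 0)
      map_add' := fun x y => Lim_uniq (hj k _) (Lim_add (hj k x) (hj k y))
      commutes' := fun r => Lim_uniq (hj k _) (Lim_const r)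
      map_star' := fun x => Lim_uniq (hj k _) (Lim_star (hj k x)) }
  refine ⟨J, fun k b => Lim_norm (hj k b), fun k l h b => Lim_uniq (hj l (T h b)) ?_, ?_⟩
  · intro δ hδ
    filter_upwards [hj k b δ hδ] with n hn h'
    have e : X n h' (T h b) = X n (h.trans h') b := by simp only [X, hTT]
    rw [e]; exact hn _
  · intro a
    rw [Metric.mem_closure_iff]
    intro δ hδ
    obtain ⟨i, hi⟩ := (TopologicalSpace.denseRange_denseSeq A).exists_dist_lt a (by positivity : 0 < δ / 4)
    obtain ⟨p, hp⟩ := exists_pow_lt_of_lt_one (by positivity : 0 < δ / 8) (by norm_num : (1 / 2 : ℝ) < 1)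
    set n₀ := max i p
    set b := w n₀ * ι (m n₀) (α i) * star (w n₀) with hb
    obtain ⟨q, hq⟩ := (TopologicalSpace.denseRange_denseSeq (B (m n₀))).exists_dist_lt b
      (by positivity : 0 < δ / 4)
    refine ⟨j (m n₀) b, Set.mem_iUnion.2 ⟨m n₀, b, rfl⟩, ?_⟩
    have hge : ∀ r, m n₀ ≤ m (n₀ + r) := fun r => by
      induction r with
      | zero => exact le_rfl
      | succ r ih => exact ih.trans (hmm _)
    have hbound : ∀ r, ‖X (n₀ + r) (hge r) b - ι _ (α i)‖ ≤ 2 * ε n₀ - 2 * ε (n₀ + r) := by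
      intro r
      induction r with
      | zero =>
        have e : X (n₀ + 0) (hge 0) b = ι (m n₀) (α i) := by
          have hid : T (hge 0) b = b := by
            have := hTT (hge 0) (hge 0) b
            have h2 := hT (hge 0) (T (hge 0) b - b)
            rw [map_sub, this, sub_self, norm_zero, eq_comm, norm_eq_zero, sub_eq_zero] at h2
            exact h2
          show star (w n₀) * T (hge 0) b * w n₀ = _
          rw [hid, hb, conj_conj' (hw n₀)]
        show ‖X (n₀ + 0) (hge 0) b - ι (m n₀) (α i)‖ ≤ _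
        rw [e]; simp
      | succ r ih =>
        have h1 : ‖X (n₀ + r + 1) ((hge r).trans (hmm (n₀ + r))) b - ι _ (α i)‖
            ≤ ‖X (n₀ + r) (hge r) b - ι _ (α i)‖ + ε (n₀ + r) :=
          move (hge r) b (α i) (Finset.mem_union_right _ (Finset.mem_image_of_mem α
            (Finset.mem_range.2 (by omega))))
        have e : ε (n₀ + (r + 1)) = ε (n₀ + r) / 2 := by
          show (1 / 2 : ℝ) ^ (n₀ + r + 1) = (1 / 2 : ℝ) ^ (n₀ + r) / 2
          rw [pow_succ]; ring
        exact h1.trans (by linarith)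
    obtain ⟨N, hN⟩ := eventually_atTop.1 (hj (m n₀) b _ (by positivity : 0 < δ / 8))
    have h5 := hN (n₀ + N) (Nat.le_add_left _ _) (hge N)
    have h6 := norm_sub_le_norm_sub_add_norm_sub (ι (m (n₀ + N)) (α i)) (X (n₀ + N) (hge N) b)
      (ι _ (j (m n₀) b))
    rw [← map_sub, hιn, norm_sub_rev (ι (m (n₀ + N)) (α i))] at h6
    have h7 : ε n₀ ≤ (1 / 2) ^ p :=
      pow_le_pow_of_le_one (by norm_num) (by norm_num) (le_max_right _ _)
    calc dist a (j (m n₀) b) ≤ dist a (α i) + dist (α i) (j (m n₀) b) := dist_triangle _ _ _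
      _ < δ := by rw [dist_eq_norm (α i)]; linarith [hbound N, hε (n₀ + N), hi]

end Vale.Agent.P101.Lit
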